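import Vale.Agent.P318.Main

namespace Vale.Agent.Results.P318.GapHalf

open Vale.Agent.P318

theorem result (ε : ℝ) (hε : 0 < ε) : ∃ n0 : ℕ, ∀ n : ℕ, n0 ≤ n →
    ∃ c : Fin n → Fin n → ℝ, IsCap c ∧ 0 < glValue c ∧
      Real.log n ^ (1 / 2 - ε) ≤ sparsity c / glValue c := by
  obtain ⟨n0, h⟩ := main ε hε
  refine ⟨n0, fun n hn => ?_⟩
  obtain ⟨c, hc, hgl, hle⟩ := h n hn
  exact ⟨c, hc, hgl, (le_div_iff₀ hgl).2 hle⟩

end Vale.Agent.Results.P318.GapHalf
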