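import Vale.Agent.P318N.Top

namespace Vale.Agent.Results.P318.GapSqrt

open Vale.Agent.P318

theorem result : ∃ c0 : ℝ, 0 < c0 ∧ ∃ n0 : ℕ, ∀ n : ℕ, n0 ≤ n →
    ∃ c : Fin n → Fin n → ℝ, IsCap c ∧ 0 < glValue c ∧
      c0 * √(Real.log n) / Real.log (Real.log n) ^ 2 ≤ sparsity c / glValue c :=
  N.top

end Vale.Agent.Results.P318.GapSqrt
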